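import Vale.Agent.P278.H976.Stmt

/-!
# Definitions for the sharp and functorial form of Beauville's conjecture
-/

open Topology Set Filter
open scoped ContDiff Manifold

namespace Vale.Agent.P278.H976

open Vale.Agent.P278.StmtF Vale.Agent.P278.H837

universe u

/-- A product decomposition `Φ : M ≅ Y_1 × ⋯ × Y_k` of a complex manifold: the `Y_i` are simply
connected complex manifolds and `Φ` is a biholomorphism. -/
structure Decomposition (E : Type*) [NormedAddCommGroup E] [NormedSpace ℂ E]
    (M : Type u) [TopologicalSpace M] [ChartedSpace E M] (k : ℕ) where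
  /-- the model space of `Y i` -/
  A : Fin k → Type
  [normed : ∀ i, NormedAddCommGroup (A i)]
  [space : ∀ i, NormedSpace ℂ (A i)]
  /-- the factors -/
  Y : Fin k → Type u
  [top : ∀ i, TopologicalSpace (Y i)]
  [charted : ∀ i, ChartedSpace (A i) (Y i)]
  isSC : ∀ i, IsSCManifold (A i) (Y i)
  /-- the biholomorphism -/
  Φ : Diffeomorph 𝓘(ℂ, E) (ModelWithCorners.pi fun i => 𝓘(ℂ, A i)) M (∀ i, Y i) ω

attribute [instance] Decomposition.normed Decomposition.space Decomposition.top
  Decomposition.charted

section
variable {E : Type*} [NormedAddCommGroup E] [NormedSpace ℂ E]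
  {M : Type u} [TopologicalSpace M] [ChartedSpace E M] {k : ℕ}

/-- The `i`-th coordinate `M → Y_i` of a product decomposition. -/
noncomputable def Decomposition.coord (D : Decomposition E M k) (i : Fin k) (m : M) : D.Y i := D.Φ m i

/-- The product decomposition is compatible with the distributions `G i`: the derivative of `Φ` maps
`G i` onto `pr_i^* T_{Y_i}`, i.e. a tangent vector is in `G i` if and only if the derivatives of the
coordinates `M → Y_j`, `j ≠ i`, vanish on it. -/
def Decomposition.Compatible (D : Decomposition E M k) (G : Fin k → Dist E M) : Prop :=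
  ∀ (i : Fin k) (m : M) (v : TangentSpace 𝓘(ℂ, E) m),
    v ∈ G i m ↔ ∀ j, j ≠ i → mfderiv 𝓘(ℂ, E) 𝓘(ℂ, D.A j) (D.coord j) m v = 0

end

end Vale.Agent.P278.H976
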