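import Vale.Agent.P278.H976.Maps

/-!
# Isomorphisms of manifolds with a splitting
-/

set_option linter.all false

open Topology Set Filter
open scoped ContDiff Manifold

namespace Vale.Agent.P278.H976

open Vale.Agent.P278.StmtF Vale.Agent.P278.H837 Vale.Agent.P278

universe u v

variable {E : Type*} [NormedAddCommGroup E] [NormedSpace ℂ E]
  {X : Type*} [TopologicalSpace X] [ChartedSpace E X]
  {E₁ : Type*} [NormedAddCommGroup E₁] [NormedSpace ℂ E₁]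
  {X₁ : Type*} [TopologicalSpace X₁] [ChartedSpace E₁ X₁]
  {k : ℕ} {F : Fin k → Dist E X} {F₁ : Fin k → Dist E₁ X₁}

theorem mfderiv_symm_apply (f : Diffeomorph 𝓘(ℂ, E) 𝓘(ℂ, E₁) X X₁ ω) (x : X) (w : E) :
    (show E from mfderiv 𝓘(ℂ, E₁) 𝓘(ℂ, E) f.symm (f x) (mfderiv 𝓘(ℂ, E) 𝓘(ℂ, E₁) f x w)) = w := by
  have e := mfderiv_comp x (f.symm.contMDiff.mdifferentiable (by simp) (f x))
    (f.contMDiff.mdifferentiable (by simp) x)
  have e2 : f.symm ∘ f = (@id X) := funext fun x => f.symm_apply_apply x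
  have key : ∀ (a b : X → X) (hab : a = b) (w : E),
      (show E from mfderiv 𝓘(ℂ, E) 𝓘(ℂ, E) a x w) = mfderiv 𝓘(ℂ, E) 𝓘(ℂ, E) b x w := by
    rintro _ _ rfl w; rfl
  have h1 := congrArg (fun L => L w) e
  have h2 := key _ _ e2 w
  have h3 : mfderiv 𝓘(ℂ, E) 𝓘(ℂ, E) (@id X) x = ContinuousLinearMap.id ℂ _ := mfderiv_id
  have h4 := congrArg (fun L => L w) h3
  exact h1.symm.trans (h2.trans h4)

theorem map_eq_iff (f : Diffeomorph 𝓘(ℂ, E) 𝓘(ℂ, E₁) X X₁ ω) :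
    (∀ i x, (F i x).map (mfderiv 𝓘(ℂ, E) 𝓘(ℂ, E₁) f x).toLinearMap = F₁ i (f x)) ↔
      Respects F F₁ f ∧ Respects F₁ F f.symm := by
  constructor
  · intro h
    refine ⟨⟨f.contMDiff, fun i x v hv => ?_⟩, ⟨f.symm.contMDiff, fun i y v hv => ?_⟩⟩
    · rw [← h i x]
      exact ⟨v, hv, rfl⟩
    · obtain ⟨x, rfl⟩ : ∃ x, f x = y := ⟨f.symm y, f.apply_symm_apply y⟩
      rw [← h i x] at hv
      obtain ⟨w, hw, hwv⟩ := hv
      have h1 := mfderiv_symm_apply f x w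
      have h2 : (show E from mfderiv 𝓘(ℂ, E₁) 𝓘(ℂ, E) f.symm (f x) v) = w := by
        rw [← hwv]
        exact h1
      have h3 := dist_transport (F i) (f.symm_apply_apply x).symm w hw
      show (show TangentSpace 𝓘(ℂ, E) (f.symm (f x)) from
        (show E from mfderiv 𝓘(ℂ, E₁) 𝓘(ℂ, E) f.symm (f x) v)) ∈ F i (f.symm (f x))
      rw [h2]
      exact h3
  · rintro ⟨h1, h2⟩ i x
    apply le_antisymm
    · rintro _ ⟨v, hv, rfl⟩
      exact h1.2 i x v hv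
    · intro v hv
      have h3 := h2.2 i (f x) v hv
      have h4 := dist_transport (F i) (f.symm_apply_apply x) _ h3
      refine ⟨_, h4, ?_⟩
      have key : ∀ (x' : X) (hx : x' = x) (w : E), (show E₁ from mfderiv 𝓘(ℂ, E) 𝓘(ℂ, E₁) f x' w) =
        mfderiv 𝓘(ℂ, E) 𝓘(ℂ, E₁) f x w := by
        rintro _ rfl w; rfl
      have h5 := mfderiv_symm_apply f.symm (f x) v
      exact (key _ (f.symm_apply_apply x) _).symm.trans h5

section
variable {M : Type u} [TopologicalSpace M] [ChartedSpace E M] [IsManifold 𝓘(ℂ, E) ω M]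
  {M₁ : Type u} [TopologicalSpace M₁] [ChartedSpace E₁ M₁] [IsManifold 𝓘(ℂ, E₁) ω M₁]
  {π : M → X} {π₁ : M₁ → X₁}
  {D : Decomposition E M k} {D₁ : Decomposition E₁ M₁ k}

theorem Decomposition.prodMap_comp {E₂ : Type*} [NormedAddCommGroup E₂] [NormedSpace ℂ E₂]
    {M₂ : Type u} [TopologicalSpace M₂] [ChartedSpace E₂ M₂]
    (D : Decomposition E M k) (D₁ : Decomposition E₁ M₁ k) (D₂ : Decomposition E₂ M₂ k)
    (g : ∀ i, D.Y i → D₁.Y i) (g' : ∀ i, D₁.Y i → D₂.Y i) (m : M) :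
    D.prodMap D₂ (fun i => g' i ∘ g i) m = D₁.prodMap D₂ g' (D.prodMap D₁ g m) := by
  apply D₂.Φ.injective
  funext i
  refine (D.prodMap_coord D₂ _ m i).trans (Eq.trans ?_ (D₁.prodMap_coord D₂ g' _ i).symm)
  rw [D.prodMap_coord D₁ g m i]
  rfl

theorem Decomposition.prodMap_id (D : Decomposition E M k) (m : M) :
    D.prodMap D (fun i => id) m = m := by
  unfold Decomposition.prodMap
  exact D.Φ.symm_apply_apply m

/-- the two lifts are inverse to each other -/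
theorem lift_comp_eq_id [SimplyConnectedSpace M]
    (hπ : IsCoveringMap π)
    (hπl : IsLocalDiffeomorph 𝓘(ℂ, E) 𝓘(ℂ, E) ω π)
    (hD : D.Compatible fun i => pull π (F i))
    {g : ∀ i, D.Y i → D₁.Y i} {g' : ∀ i, D₁.Y i → D.Y i}
    (hg : ∀ i, ContMDiff 𝓘(ℂ, D.A i) 𝓘(ℂ, D₁.A i) ω (g i))
    (hg' : ∀ i, ContMDiff 𝓘(ℂ, D₁.A i) 𝓘(ℂ, D.A i) ω (g' i))
    {f : X → X₁} {f' : X₁ → X} (hff : ∀ x, f' (f x) = x)
    (h1 : ∀ m, f (π m) = π₁ (D.prodMap D₁ g m))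
    (h2 : ∀ m₁, f' (π₁ m₁) = π (D₁.prodMap D g' m₁))
    {m₀ : M} {m₁ : M₁} (h3 : D.prodMap D₁ g m₀ = m₁) (h4 : D₁.prodMap D g' m₁ = m₀)
    (i : Fin k) (t : D.Y i) : g' i (g i t) = t := by
  have hid : Respects F F (fun x : X => x) := by
    refine ⟨contMDiff_id, fun i x v hv => ?_⟩
    have e : mfderiv 𝓘(ℂ, E) 𝓘(ℂ, E) (@id X) x = ContinuousLinearMap.id ℂ _ := mfderiv_id
    have e' : mfderiv 𝓘(ℂ, E) 𝓘(ℂ, E) (fun x : X => x) x v = v := congrArg (fun L => L v) e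
    rw [e']
    exact hv
  have hu := exists_unique_lift hπ hπl hπl hD hD hid m₀ m₀ rfl
  have e1 : (fun i => g' i ∘ g i) = fun i => (id : D.Y i → D.Y i) := by
    refine hu.unique ⟨fun i => (hg' i).comp (hg i), fun m => ?_, ?_⟩
      ⟨fun i => contMDiff_id, fun m => ?_, D.prodMap_id m₀⟩
    · rw [D.prodMap_comp D₁ D g g' m, ← h2, ← h1, hff]
    · rw [D.prodMap_comp D₁ D g g' m₀, h3, h4]
    · rw [D.prodMap_id m]
  exact congrFun (congrFun e1 i) t

/-- **Isomorphisms.** -/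
theorem iso_iff [IsManifold 𝓘(ℂ, E) ω X] [IsManifold 𝓘(ℂ, E₁) ω X₁]
    [ConnectedSpace X] [ConnectedSpace X₁]
    [SimplyConnectedSpace M] [SimplyConnectedSpace M₁]
    (hπ : IsCoveringMap π) (hπ₁ : IsCoveringMap π₁)
    (hπl : IsLocalDiffeomorph 𝓘(ℂ, E) 𝓘(ℂ, E) ω π)
    (hπl₁ : IsLocalDiffeomorph 𝓘(ℂ, E₁) 𝓘(ℂ, E₁) ω π₁)
    (hD : D.Compatible fun i => pull π (F i)) (hD₁ : D₁.Compatible fun i => pull π₁ (F₁ i)) :
    (∃ f : Diffeomorph 𝓘(ℂ, E) 𝓘(ℂ, E₁) X X₁ ω, ∀ i x,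
      (F i x).map (mfderiv 𝓘(ℂ, E) 𝓘(ℂ, E₁) f x).toLinearMap = F₁ i (f x)) ↔
    ∃ g : ∀ i, Diffeomorph 𝓘(ℂ, D.A i) 𝓘(ℂ, D₁.A i) (D.Y i) (D₁.Y i) ω, ∀ m m',
      π m = π m' ↔
        π₁ (D.prodMap D₁ (fun i => g i) m) = π₁ (D.prodMap D₁ (fun i => g i) m') := by
  have hne : Nonempty M := inferInstance
  have hne₁ : Nonempty M₁ := inferInstance
  have hs : Function.Surjective π := surjective_of_covering hπ
  have hs₁ : Function.Surjective π₁ := surjective_of_covering hπ₁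
  constructor
  · rintro ⟨f, hf⟩
    obtain ⟨r1, r2⟩ := (map_eq_iff f).1 hf
    obtain ⟨m₀⟩ := hne
    obtain ⟨m₁, hm₁⟩ := hs₁ (f (π m₀))
    obtain ⟨g, ⟨hg, hgf, hg0⟩, -⟩ := exists_unique_lift hπ₁ hπl hπl₁ hD hD₁ r1 m₀ m₁ hm₁
    obtain ⟨g', ⟨hg', hg'f, hg'0⟩, -⟩ := exists_unique_lift hπ hπl₁ hπl hD₁ hD r2 m₁ m₀
      (by rw [hm₁, f.symm_apply_apply])
    have hl := lift_comp_eq_id (F := F) hπ hπl hD hg hg' (f := f) (f' := f.symm)
      (fun x => f.symm_apply_apply x) hgf hg'f hg0 hg'0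
    have hr := lift_comp_eq_id (F := F₁) hπ₁ hπl₁ hD₁ hg' hg (f := f.symm) (f' := f)
      (fun x => f.apply_symm_apply x) hg'f hgf hg'0 hg0
    refine ⟨fun i =>
      { toFun := g i
        invFun := g' i
        left_inv := hl i
        right_inv := hr i
        contMDiff_toFun := hg i
        contMDiff_invFun := hg' i }, fun m m' => ?_⟩
    show π m = π m' ↔ π₁ (D.prodMap D₁ g m) = π₁ (D.prodMap D₁ g m')
    rw [← hgf, ← hgf]
    exact f.injective.eq_iff.symm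
  · rintro ⟨g, hg⟩
    choose σ hσ using hs
    choose σ₁ hσ₁ using hs₁
    have hgg : ∀ m₁, D.prodMap D₁ (fun i => g i) (D₁.prodMap D (fun i => (g i).symm) m₁) = m₁ := by
      intro m₁
      rw [← D₁.prodMap_comp D D₁]
      refine Eq.trans ?_ (D₁.prodMap_id m₁)
      congr 1
      funext i t
      exact (g i).apply_symm_apply t
    have hgg' : ∀ m, D₁.prodMap D (fun i => (g i).symm) (D.prodMap D₁ (fun i => g i) m) = m := by
      intro m
      rw [← D.prodMap_comp D₁ D]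
      refine Eq.trans ?_ (D.prodMap_id m)
      congr 1
      funext i t
      exact (g i).symm_apply_apply t
    have hg' : ∀ m m', π₁ m = π₁ m' ↔ π (D₁.prodMap D (fun i => (g i).symm) m) =
        π (D₁.prodMap D (fun i => (g i).symm) m') := by
      intro m m'
      rw [hg, hgg, hgg]
    let f : X → X₁ := fun x => π₁ (D.prodMap D₁ (fun i => g i) (σ x))
    let f' : X₁ → X := fun y => π (D₁.prodMap D (fun i => (g i).symm) (σ₁ y))
    have hf : ∀ m, f (π m) = π₁ (D.prodMap D₁ (fun i => g i) m) := fun m =>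
      (hg _ _).1 (hσ (π m))
    have hf' : ∀ m, f' (π₁ m) = π (D₁.prodMap D (fun i => (g i).symm) m) := fun m =>
      (hg' _ _).1 (hσ₁ (π₁ m))
    have hl : ∀ x, f' (f x) = x := by
      intro x
      show f' (π₁ _) = x
      rw [hf', hgg', hσ]
    have hr : ∀ y, f (f' y) = y := by
      intro y
      show f (π _) = y
      rw [hf, hgg, hσ₁]
    have r1 : Respects F F₁ f := respects_of_prodMap (fun x => ⟨σ x, hσ x⟩) hπl hπl₁ hD hD₁
      (fun i => g i) (fun i => (g i).contMDiff) hf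
    have r2 : Respects F₁ F f' := respects_of_prodMap (fun x => ⟨σ₁ x, hσ₁ x⟩) hπl₁ hπl hD₁ hD
      (fun i => (g i).symm) (fun i => (g i).symm.contMDiff) hf'
    let f₀ : Diffeomorph 𝓘(ℂ, E) 𝓘(ℂ, E₁) X X₁ ω :=
      { toFun := f
        invFun := f'
        left_inv := hl
        right_inv := hr
        contMDiff_toFun := r1.1
        contMDiff_invFun := r2.1 }
    exact ⟨f₀, (map_eq_iff f₀).2 ⟨r1, r2⟩⟩

end

end Vale.Agent.P278.H976
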