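import Vale.Agent.P278.H976.Pair
import Vale.Agent.P278.H976.Iso

/-!
# All parts together
-/

set_option linter.all false

open Topology Set Filter
open scoped ContDiff Manifold

namespace Vale.Agent.P278.H976

open Vale.Agent.P278.StmtF Vale.Agent.P278.H837 Vale.Agent.P278

universe u v

section
variable {E : Type*} [NormedAddCommGroup E] [NormedSpace ℂ E] [FiniteDimensional ℂ E]
  {X : Type*} [TopologicalSpace X] [ConnectedSpace X] [ChartedSpace E X] [IsManifold 𝓘(ℂ, E) ω X]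
  {M : Type u} [TopologicalSpace M] [SimplyConnectedSpace M] [ChartedSpace E M]
  [IsManifold 𝓘(ℂ, E) ω M]
  {π : M → X} (hπ : IsCoveringMap π) (hπl : IsLocalDiffeomorph 𝓘(ℂ, E) 𝓘(ℂ, E) ω π) {k : ℕ}

include hπ hπl

theorem beauville [CompactSpace X] [T2Space X] {h : Form E X} (hh : StmtF.IsKahler h)
    (F : Fin k → Dist E X) (hsub : ∀ i, StmtF.IsSubbundle (F i))
    (hdir : ∀ x, DirectSum.IsInternal fun i => F i x)
    (hint : ∀ I : Set (Fin k), StmtF.IsIntegrable fun x => ⨆ i ∈ I, F i x) :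
    InducesProduct fun i => pull π (F i) :=
  Vale.Agent.P278.Full.bridgeF π hπ hπl h hh F hsub hint hdir

theorem tfae [CompactSpace X] [T2Space X] {h : Form E X} (hh : StmtF.IsKahler h)
    (F : Fin k → Dist E X) (hsub : ∀ i, StmtF.IsSubbundle (F i))
    (hdir : ∀ x, DirectSum.IsInternal fun i => F i x) :
    [InducesProduct fun i => pull π (F i),
      ∀ I : Set (Fin k), StmtF.IsIntegrable fun x => ⨆ i ∈ I, F i x,
      ∀ j : Fin k, StmtF.IsIntegrable fun x => ⨆ i ≠ j, F i x,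
      ∀ i j : Fin k, StmtF.IsIntegrable fun x => F i x ⊔ F j x].TFAE := by
  tfae_have 2 → 1 := fun hint => beauville hπ hπl hh F hsub hdir hint
  tfae_have 1 → 2 := by
    intro h
    obtain ⟨D, hD⟩ := exists_decomposition h
    exact (isSplitting_of_compatible hπ hπl F D hD).integrable
  tfae_have 2 ↔ 3 := integrable_iff_complements hdir
  tfae_have 2 → 4 := fun h i j => pairs_of_integrable h i j
  tfae_have 4 → 2 := fun h I => integrable_of_pairs hsub hdir h I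
  tfae_finish

end

theorem areIsomorphic_iff {E : Type*} [NormedAddCommGroup E] [NormedSpace ℂ E]
    {X : Type*} [TopologicalSpace X] [ChartedSpace E X]
    {E₁ : Type*} [NormedAddCommGroup E₁] [NormedSpace ℂ E₁]
    {X₁ : Type*} [TopologicalSpace X₁] [ChartedSpace E₁ X₁]
    {k : ℕ} (F : Fin k → Dist E X) (F₁ : Fin k → Dist E₁ X₁) : AreIsomorphic F F₁ ↔
    ∃ f : Diffeomorph 𝓘(ℂ, E) 𝓘(ℂ, E₁) X X₁ ω, ∀ i x,
      (F i x).map (mfderiv 𝓘(ℂ, E) 𝓘(ℂ, E₁) f x).toLinearMap = F₁ i (f x) := by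
  constructor
  · rintro ⟨f, h1, h2⟩
    let f₀ : Diffeomorph 𝓘(ℂ, E) 𝓘(ℂ, E₁) X X₁ ω :=
      { toEquiv := f
        contMDiff_toFun := h1.1
        contMDiff_invFun := h2.1 }
    exact ⟨f₀, (map_eq_iff f₀).2 ⟨h1, h2⟩⟩
  · rintro ⟨f, hf⟩
    exact ⟨f.toEquiv, (map_eq_iff f).1 hf⟩

section
variable {E : Type*} [NormedAddCommGroup E] [NormedSpace ℂ E]
  {X : Type*} [TopologicalSpace X] [ChartedSpace E X]
  {M : Type u} [TopologicalSpace M] [ChartedSpace E M]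
  {E₁ : Type*} [NormedAddCommGroup E₁] [NormedSpace ℂ E₁]
  {X₁ : Type*} [TopologicalSpace X₁] [ChartedSpace E₁ X₁]
  {M₁ : Type u} [TopologicalSpace M₁] [ChartedSpace E₁ M₁] {k : ℕ}
  {π : M → X} {π₁ : M₁ → X₁} {D : Decomposition E M k} {D₁ : Decomposition E₁ M₁ k}

theorem corr_iff (g : ∀ i, D.Y i → D₁.Y i) (m : M) (m₁ : M₁) :
    (∀ i, D₁.Φ m₁ i = g i (D.Φ m i)) ↔ D.prodMap D₁ g m = m₁ :=
  (D.prodMap_eq_iff D₁ g m m₁).symm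

theorem isProductLift_iff (f : X → X₁) (g : ∀ i, D.Y i → D₁.Y i) :
    IsProductLift π π₁ D.A D₁.A D.Φ D₁.Φ f g ↔
      (∀ i, ContMDiff 𝓘(ℂ, D.A i) 𝓘(ℂ, D₁.A i) ω (g i)) ∧
      ∀ m, f (π m) = π₁ (D.prodMap D₁ g m) := by
  unfold IsProductLift
  refine and_congr_right fun _ => ⟨fun h m => ?_, fun h m m₁ hm => ?_⟩
  · exact (h m _ ((corr_iff g m _).2 rfl)).symm
  · rw [h m, (corr_iff g m m₁).1 hm]

theorem factorsAreIsomorphic_iff : FactorsAreIsomorphic π π₁ D.A D₁.A D.Φ D₁.Φ ↔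
    ∃ g : ∀ i, Diffeomorph 𝓘(ℂ, D.A i) 𝓘(ℂ, D₁.A i) (D.Y i) (D₁.Y i) ω, ∀ m m',
      π m = π m' ↔
        π₁ (D.prodMap D₁ (fun i => g i) m) = π₁ (D.prodMap D₁ (fun i => g i) m') := by
  constructor
  · rintro ⟨g, h1, h⟩
    refine ⟨fun i =>
      { toEquiv := g i
        contMDiff_toFun := (h1 i).1
        contMDiff_invFun := (h1 i).2 }, fun m m' => ?_⟩
    exact h m m' _ _ ((corr_iff (fun i => g i) _ _).2 rfl) ((corr_iff (fun i => g i) _ _).2 rfl)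
  · rintro ⟨g, h⟩
    refine ⟨fun i => (g i).toEquiv, fun i => ⟨(g i).contMDiff, (g i).symm.contMDiff⟩,
      fun m m' m₁ m₁' h1 h1' => ?_⟩
    rw [h m m', (corr_iff (fun i => g i) _ _).1 h1, (corr_iff (fun i => g i) _ _).1 h1']

end

section
variable {E : Type*} [NormedAddCommGroup E] [NormedSpace ℂ E] [FiniteDimensional ℂ E]
  {X : Type*} [TopologicalSpace X] [ConnectedSpace X] [ChartedSpace E X] [IsManifold 𝓘(ℂ, E) ω X]
  {M : Type u} [TopologicalSpace M] [SimplyConnectedSpace M] [ChartedSpace E M]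
  [IsManifold 𝓘(ℂ, E) ω M]
  {E₁ : Type*} [NormedAddCommGroup E₁] [NormedSpace ℂ E₁] [FiniteDimensional ℂ E₁]
  {X₁ : Type*} [TopologicalSpace X₁] [ConnectedSpace X₁] [ChartedSpace E₁ X₁]
  [IsManifold 𝓘(ℂ, E₁) ω X₁]
  {M₁ : Type u} [TopologicalSpace M₁] [SimplyConnectedSpace M₁] [ChartedSpace E₁ M₁]
  [IsManifold 𝓘(ℂ, E₁) ω M₁]
  {k : ℕ} {F : Fin k → Dist E X} {F₁ : Fin k → Dist E₁ X₁}

theorem mapsD (π : M → X) (hπ : IsCoveringMap π) (hπl : IsLocalDiffeomorph 𝓘(ℂ, E) 𝓘(ℂ, E) ω π)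
    (π₁ : M₁ → X₁) (hπ₁ : IsCoveringMap π₁) (hπl₁ : IsLocalDiffeomorph 𝓘(ℂ, E₁) 𝓘(ℂ, E₁) ω π₁)
    (D : Decomposition E M k) (D₁ : Decomposition E₁ M₁ k)
    (hD : D.Compatible fun i => pull π (F i)) (hD₁ : D₁.Compatible fun i => pull π₁ (F₁ i)) :
    (∀ f : X → X₁, Respects F F₁ f ↔ ∃ g, IsProductLift π π₁ D.A D₁.A D.Φ D₁.Φ f g) ∧
    (∀ f : X → X₁, Respects F F₁ f → ∀ m₀ m₁, π₁ m₁ = f (π m₀) →
      ∃! g, IsProductLift π π₁ D.A D₁.A D.Φ D₁.Φ f g ∧ ∀ i, D₁.Φ m₁ i = g i (D.Φ m₀ i)) ∧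
    (AreIsomorphic F F₁ ↔ FactorsAreIsomorphic π π₁ D.A D₁.A D.Φ D₁.Φ) := by
  have key : ∀ f : X → X₁, Respects F F₁ f → ∀ m₀ m₁, π₁ m₁ = f (π m₀) →
      ∃! g, IsProductLift π π₁ D.A D₁.A D.Φ D₁.Φ f g ∧ ∀ i, D₁.Φ m₁ i = g i (D.Φ m₀ i) := by
    intro f hf m₀ m₁ h0
    obtain ⟨g, ⟨h1, h2, h3⟩, hu⟩ := exists_unique_lift hπ₁ hπl hπl₁ hD hD₁ hf m₀ m₁ h0
    refine ⟨g, ⟨(isProductLift_iff f g).2 ⟨h1, h2⟩, (corr_iff g m₀ m₁).2 h3⟩, ?_⟩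
    rintro g' ⟨h1', h3'⟩
    have h2' := (isProductLift_iff f g').1 h1'
    exact hu g' ⟨h2'.1, h2'.2, (corr_iff g' m₀ m₁).1 h3'⟩
  refine ⟨fun f => ⟨fun hf => ?_, ?_⟩, key, ?_⟩
  · obtain ⟨m₀⟩ : Nonempty M := inferInstance
    obtain ⟨m₁, hm₁⟩ := surjective_of_covering hπ₁ (f (π m₀))
    obtain ⟨g, ⟨h1, -⟩, -⟩ := key f hf m₀ m₁ hm₁
    exact ⟨g, h1⟩
  · rintro ⟨g, hg⟩
    obtain ⟨h1, h2⟩ := (isProductLift_iff f g).1 hg
    exact respects_of_prodMap (surjective_of_covering hπ) hπl hπl₁ hD hD₁ g h1 h2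
  · rw [factorsAreIsomorphic_iff, areIsomorphic_iff]
    exact iso_iff hπ hπ₁ hπl hπl₁ hD hD₁

theorem maps (π : M → X) (hπ : IsCoveringMap π) (hπl : IsLocalDiffeomorph 𝓘(ℂ, E) 𝓘(ℂ, E) ω π)
    (π₁ : M₁ → X₁) (hπ₁ : IsCoveringMap π₁) (hπl₁ : IsLocalDiffeomorph 𝓘(ℂ, E₁) 𝓘(ℂ, E₁) ω π₁)
    (A : Fin k → Type) [∀ i, NormedAddCommGroup (A i)] [∀ i, NormedSpace ℂ (A i)]
    (Y : Fin k → Type u) [∀ i, TopologicalSpace (Y i)] [∀ i, ChartedSpace (A i) (Y i)]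
    (Φ : M → ∀ i, Y i)
    (A₁ : Fin k → Type) [∀ i, NormedAddCommGroup (A₁ i)] [∀ i, NormedSpace ℂ (A₁ i)]
    (Y₁ : Fin k → Type u) [∀ i, TopologicalSpace (Y₁ i)] [∀ i, ChartedSpace (A₁ i) (Y₁ i)]
    (Φ₁ : M₁ → ∀ i, Y₁ i)
    (h : IsProduct (fun i => pull π (F i)) A Y Φ)
    (h₁ : IsProduct (fun i => pull π₁ (F₁ i)) A₁ Y₁ Φ₁) :
    (∀ f : X → X₁, Respects F F₁ f ↔ ∃ g, IsProductLift π π₁ A A₁ Φ Φ₁ f g) ∧
    (∀ f : X → X₁, Respects F F₁ f → ∀ m₀ m₁, π₁ m₁ = f (π m₀) →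
      ∃! g, IsProductLift π π₁ A A₁ Φ Φ₁ f g ∧ ∀ i, Φ₁ m₁ i = g i (Φ m₀ i)) ∧
    (AreIsomorphic F F₁ ↔ FactorsAreIsomorphic π π₁ A A₁ Φ Φ₁) := by
  let D : Decomposition E M k :=
    { A := A
      Y := Y
      isSC := h.factor
      Φ := h.bihol.2.diffeomorphOfBijective h.bihol.1 }
  let D₁ : Decomposition E₁ M₁ k :=
    { A := A₁
      Y := Y₁
      isSC := h₁.factor
      Φ := h₁.bihol.2.diffeomorphOfBijective h₁.bihol.1 }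
  have hD : D.Compatible fun i => pull π (F i) := (D.compatible_iff _).2 h.ker
  have hD₁ : D₁.Compatible fun i => pull π₁ (F₁ i) := (D₁.compatible_iff _).2 h₁.ker
  exact mapsD π hπ hπl π₁ hπ₁ hπl₁ D D₁ hD hD₁

end

end Vale.Agent.P278.H976
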