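import Vale.Agent.P278.H837.Final
import Vale.Agent.P278.H976.Defs

/-!
# Sharp form and functoriality
-/

set_option linter.all false

open Topology Set Filter
open scoped ContDiff Manifold

namespace Vale.Agent.P278.H976

open Vale.Agent.P278.StmtF Vale.Agent.P278.H837 Vale.Agent.P278

universe u v

section
variable {E : Type*} [NormedAddCommGroup E] [NormedSpace ℂ E]
  {M : Type u} [TopologicalSpace M] [ChartedSpace E M] {k : ℕ}

/-- The map `M → M₁` given by a family of maps of the factors. -/
noncomputable def Decomposition.prodMap {E₁ : Type*} [NormedAddCommGroup E₁] [NormedSpace ℂ E₁]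
    {M₁ : Type u} [TopologicalSpace M₁] [ChartedSpace E₁ M₁]
    (D : Decomposition E M k) (D₁ : Decomposition E₁ M₁ k) (g : ∀ i, D.Y i → D₁.Y i) (m : M) : M₁ :=
  D₁.Φ.symm fun i => g i (D.Φ m i)

/-- compatibility, in terms of kernels -/
theorem Decomposition.compatible_iff (D : Decomposition E M k) (G : Fin k → Dist E M) :
    D.Compatible G ↔ ∀ i x, G i x = ⨅ j ≠ i, kerD (D.A j) (fun y => D.Φ y j) x := by
  refine forall₂_congr fun i m => ?_
  have hker : ∀ v : TangentSpace 𝓘(ℂ, E) m,
      v ∈ (⨅ j ≠ i, kerD (D.A j) (fun y => D.Φ y j) m : Submodule ℂ (TangentSpace 𝓘(ℂ, E) m)) ↔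
      ∀ j, j ≠ i → mfderiv 𝓘(ℂ, E) 𝓘(ℂ, D.A j) (D.coord j) m v = 0 := by
    intro v
    simp only [Submodule.mem_iInf]
    exact Iff.rfl
  constructor
  · intro h
    ext v
    rw [hker]
    exact h v
  · intro h v
    rw [h]
    exact hker v

theorem Decomposition.Compatible.isProduct {D : Decomposition E M k} {G : Fin k → Dist E M}
    (h : D.Compatible G) : IsProduct G D.A D.Y D.Φ :=
  ⟨D.isSC, ⟨D.Φ.bijective, D.Φ.isLocalDiffeomorph⟩, (D.compatible_iff G).1 h⟩

/-- the converse -/
theorem exists_decomposition {G : Fin k → Dist E M}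
    (h : InducesProduct G) : ∃ D : Decomposition E M k, D.Compatible G := by
  obtain ⟨A, i1, i2, Y, i3, i4, Φ, h1, h2, h3⟩ := h
  let D : Decomposition E M k :=
    { A := A
      Y := Y
      isSC := h1
      Φ := h2.2.diffeomorphOfBijective h2.1 }
  exact ⟨D, (D.compatible_iff G).2 h3⟩

end

end Vale.Agent.P278.H976
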