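import Vale.Agent.P278.H976.Main

/-!
# Maps which respect the splittings are the products of maps of the factors
-/

set_option linter.all false

open Topology Set Filter
open scoped ContDiff Manifold

namespace Vale.Agent.P278.H976

open Vale.Agent.P278.StmtF Vale.Agent.P278.H837 Vale.Agent.P278

universe u v

variable {E : Type*} [NormedAddCommGroup E] [NormedSpace ℂ E]
  {X : Type*} [TopologicalSpace X] [ChartedSpace E X]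
  {M : Type u} [TopologicalSpace M] [ChartedSpace E M]
  {π : M → X}
  {E₁ : Type*} [NormedAddCommGroup E₁] [NormedSpace ℂ E₁]
  {X₁ : Type*} [TopologicalSpace X₁] [ChartedSpace E₁ X₁]
  {M₁ : Type u} [TopologicalSpace M₁] [ChartedSpace E₁ M₁]
  {π₁ : M₁ → X₁} {k : ℕ}

/-- A continuous lift of a holomorphic map is holomorphic. -/
theorem contMDiff_lift (hπl : IsLocalDiffeomorph 𝓘(ℂ, E) 𝓘(ℂ, E) ω π)
    (hπl₁ : IsLocalDiffeomorph 𝓘(ℂ, E₁) 𝓘(ℂ, E₁) ω π₁) {f : X → X₁}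
    (hf : ContMDiff 𝓘(ℂ, E) 𝓘(ℂ, E₁) ω f) {f' : M → M₁} (hc : Continuous f')
    (h : ∀ m, π₁ (f' m) = f (π m)) : ContMDiff 𝓘(ℂ, E) 𝓘(ℂ, E₁) ω f' := by
  intro m
  obtain ⟨Θ, hΘm, hΘ⟩ := hπl₁ (f' m)
  have h1 : ContMDiffAt 𝓘(ℂ, E) 𝓘(ℂ, E₁) ω (fun m' => Θ.symm (f (π m'))) m := by
    have hπ1 : ContMDiffAt 𝓘(ℂ, E) 𝓘(ℂ, E₁) ω (fun m' => f (π m')) m :=
      (hf (π m)).comp m (hπl.contMDiff m)
    have hmem : f (π m) ∈ Θ.target := by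
      rw [← h m, hΘ hΘm]
      exact Θ.map_source hΘm
    have h2 : ContMDiffAt 𝓘(ℂ, E₁) 𝓘(ℂ, E₁) ω Θ.symm (f (π m)) :=
      (Θ.symm.contMDiffOn (f (π m)) hmem).contMDiffAt (Θ.open_target.mem_nhds hmem)
    exact h2.comp m hπ1
  refine h1.congr_of_eventuallyEq ?_
  have hev : ∀ᶠ m' in 𝓝 m, f' m' ∈ Θ.source :=
    hc.continuousAt.eventually_mem (Θ.open_source.mem_nhds hΘm)
  filter_upwards [hev] with m' hm'
  have h3 : f (π m') = Θ (f' m') := by rw [← h m', hΘ hm']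
  rw [h3]
  exact (Θ.left_inv hm').symm

/-- the chain rule for a lift -/
theorem mfderiv_lift (hπ : MDifferentiable 𝓘(ℂ, E) 𝓘(ℂ, E) π)
    (hπ₁ : MDifferentiable 𝓘(ℂ, E₁) 𝓘(ℂ, E₁) π₁) {f : X → X₁}
    (hf : MDifferentiable 𝓘(ℂ, E) 𝓘(ℂ, E₁) f) {f' : M → M₁}
    (hf' : MDifferentiable 𝓘(ℂ, E) 𝓘(ℂ, E₁) f')
    (h : ∀ m, π₁ (f' m) = f (π m)) (m : M) (v : E) :
    (show E₁ from mfderiv 𝓘(ℂ, E₁) 𝓘(ℂ, E₁) π₁ (f' m) (mfderiv 𝓘(ℂ, E) 𝓘(ℂ, E₁) f' m v)) =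
      mfderiv 𝓘(ℂ, E) 𝓘(ℂ, E₁) f (π m) (mfderiv 𝓘(ℂ, E) 𝓘(ℂ, E) π m v) := by
  have e := mfderiv_comp m (hπ₁ (f' m)) (hf' m)
  have e' := mfderiv_comp m (hf (π m)) (hπ m)
  have e2 : π₁ ∘ f' = f ∘ π := funext h
  have key : ∀ (a b : M → X₁) (hab : a = b) (w : E),
      (show E₁ from mfderiv 𝓘(ℂ, E) 𝓘(ℂ, E₁) a m w) = mfderiv 𝓘(ℂ, E) 𝓘(ℂ, E₁) b m w := by
    rintro _ _ rfl w; rfl
  have h1 := congrArg (fun L => L v) e
  have h2 := congrArg (fun L => L v) e'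
  exact h1.symm.trans ((key _ _ e2 v).trans h2)

theorem dist_transport (F : Dist E X) {y z : X} (h : y = z) (w : E)
    (hw : (show TangentSpace 𝓘(ℂ, E) y from w) ∈ F y) :
    (show TangentSpace 𝓘(ℂ, E) z from w) ∈ F z := by
  subst h; exact hw

/-- A lift of a map which respects the distributions respects their pull backs. -/
theorem pull_lift (hπ : MDifferentiable 𝓘(ℂ, E) 𝓘(ℂ, E) π)
    (hπ₁ : MDifferentiable 𝓘(ℂ, E₁) 𝓘(ℂ, E₁) π₁) {f : X → X₁}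
    (hf : MDifferentiable 𝓘(ℂ, E) 𝓘(ℂ, E₁) f) {f' : M → M₁}
    (hf' : MDifferentiable 𝓘(ℂ, E) 𝓘(ℂ, E₁) f')
    (h : ∀ m, π₁ (f' m) = f (π m)) (F : Dist E X) (F₁ : Dist E₁ X₁)
    (hF : ∀ x, ∀ v ∈ F x, mfderiv 𝓘(ℂ, E) 𝓘(ℂ, E₁) f x v ∈ F₁ (f x))
    (m : M) (v : TangentSpace 𝓘(ℂ, E) m) (hv : v ∈ pull π F m) :
    mfderiv 𝓘(ℂ, E) 𝓘(ℂ, E₁) f' m v ∈ pull π₁ F₁ (f' m) := by
  have h1 := hF (π m) _ hv
  have h2 := dist_transport F₁ (h m).symm _ h1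
  have h3 := mfderiv_lift hπ hπ₁ hf hf' h m v
  show (show TangentSpace 𝓘(ℂ, E₁) (π₁ (f' m)) from
    (show E₁ from mfderiv 𝓘(ℂ, E₁) 𝓘(ℂ, E₁) π₁ (f' m) (mfderiv 𝓘(ℂ, E) 𝓘(ℂ, E₁) f' m v))) ∈
      F₁ (π₁ (f' m))
  rw [h3]
  exact h2

section
variable (D : Decomposition E M k) (D₁ : Decomposition E₁ M₁ k)

theorem Decomposition.prodMap_coord (g : ∀ i, D.Y i → D₁.Y i) (m : M) (i : Fin k) :
    D₁.Φ (D.prodMap D₁ g m) i = g i (D.Φ m i) := by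
  unfold Decomposition.prodMap
  rw [D₁.Φ.apply_symm_apply]

theorem Decomposition.prodMap_eq_iff (g : ∀ i, D.Y i → D₁.Y i) (m : M) (m₁ : M₁) :
    D.prodMap D₁ g m = m₁ ↔ ∀ i, D₁.Φ m₁ i = g i (D.Φ m i) := by
  constructor
  · rintro rfl i
    exact D.prodMap_coord D₁ g m i
  · intro h
    apply D₁.Φ.injective
    funext i
    exact (D.prodMap_coord D₁ g m i).trans (h i).symm

theorem Decomposition.contMDiff_coord (i : Fin k) :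
    ContMDiff 𝓘(ℂ, E) 𝓘(ℂ, D.A i) ω (fun m => D.Φ m i) :=
  contMDiff_pi_iff.1 D.Φ.contMDiff i

theorem Decomposition.contMDiff_prodMap (g : ∀ i, D.Y i → D₁.Y i)
    (hg : ∀ i, ContMDiff 𝓘(ℂ, D.A i) 𝓘(ℂ, D₁.A i) ω (g i)) :
    ContMDiff 𝓘(ℂ, E) 𝓘(ℂ, E₁) ω (D.prodMap D₁ g) := by
  have h1 : ContMDiff 𝓘(ℂ, E) (piModel ℂ D₁.A) ω (fun m => fun i => g i (D.Φ m i)) :=
    contMDiff_pi_iff.2 fun i => (hg i).comp (D.contMDiff_coord i)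
  exact D₁.Φ.symm.contMDiff.comp h1

/-- Product maps respect the coordinate directions. -/
theorem Decomposition.mfderiv_prodMap_mem {G : Fin k → Dist E M} (hD : D.Compatible G)
    {G₁ : Fin k → Dist E₁ M₁} (hD₁ : D₁.Compatible G₁) (g : ∀ i, D.Y i → D₁.Y i)
    (hg : ∀ i, ContMDiff 𝓘(ℂ, D.A i) 𝓘(ℂ, D₁.A i) ω (g i)) (i : Fin k) (m : M)
    (v : TangentSpace 𝓘(ℂ, E) m) (hv : v ∈ G i m) :
    mfderiv 𝓘(ℂ, E) 𝓘(ℂ, E₁) (D.prodMap D₁ g) m v ∈ G₁ i (D.prodMap D₁ g m) := by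
  rw [(D.compatible_iff G).1 hD] at hv
  rw [(D₁.compatible_iff G₁).1 hD₁]
  simp only [Submodule.mem_iInf] at hv ⊢
  intro j hj
  have hv' : mfderiv 𝓘(ℂ, E) 𝓘(ℂ, D.A j) (fun y => D.Φ y j) m v = 0 := hv j hj
  have e1 := mfderiv_comp m ((D₁.contMDiff_coord j).mdifferentiable (by simp)
    (D.prodMap D₁ g m)) ((D.contMDiff_prodMap D₁ g hg).mdifferentiable (by simp) m)
  have e2 := mfderiv_comp m ((hg j).mdifferentiable (by simp) (D.Φ m j))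
    ((D.contMDiff_coord j).mdifferentiable (by simp) m)
  have e3 : (fun y => D₁.Φ y j) ∘ (D.prodMap D₁ g) = g j ∘ fun m => D.Φ m j :=
    funext fun m => D.prodMap_coord D₁ g m j
  have e4 : ∀ (a b : M → D₁.Y j), a = b → ∀ w : E,
      (show D₁.A j from mfderiv 𝓘(ℂ, E) 𝓘(ℂ, D₁.A j) a m w) =
        mfderiv 𝓘(ℂ, E) 𝓘(ℂ, D₁.A j) b m w := by
    rintro _ _ rfl w; rfl
  have h1 := congrArg (fun L => L v) e1
  have h2 := congrArg (fun L => L v) e2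
  have h3 := e4 _ _ e3 v
  have h4 : mfderiv 𝓘(ℂ, D.A j) 𝓘(ℂ, D₁.A j) (g j) (D.Φ m j)
      (mfderiv 𝓘(ℂ, E) 𝓘(ℂ, D.A j) (fun y => D.Φ y j) m v) = 0 := by
    rw [hv']
    exact map_zero _
  exact (h1.symm.trans (h3.trans (h2.trans h4)) : _)

theorem Decomposition.coord_surjective [Nonempty M] (i : Fin k) :
    Function.Surjective fun m => D.Φ m i := by
  classical
  intro t
  obtain ⟨m₀⟩ := ‹Nonempty M›
  refine ⟨D.Φ.symm (Function.update (D.Φ m₀) i t), ?_⟩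
  show D.Φ (D.Φ.symm _) i = t
  rw [D.Φ.apply_symm_apply, Function.update_self]

theorem Decomposition.prodMap_injective [Nonempty M] {g g' : ∀ i, D.Y i → D₁.Y i}
    (h : ∀ m, D.prodMap D₁ g m = D.prodMap D₁ g' m) : g = g' := by
  funext i t
  obtain ⟨m, rfl⟩ := D.coord_surjective i t
  show g i (D.Φ m i) = g' i (D.Φ m i)
  rw [← D.prodMap_coord D₁ g m i, h m, D.prodMap_coord D₁ g' m i]

end

section
variable [IsManifold 𝓘(ℂ, E) ω M] [IsManifold 𝓘(ℂ, E₁) ω M₁]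
  {D : Decomposition E M k} {D₁ : Decomposition E₁ M₁ k}
  {F : Fin k → Dist E X} {F₁ : Fin k → Dist E₁ X₁}

/-- **Maps which respect the splittings lift to product maps**, uniquely with a prescribed value. -/
theorem exists_unique_lift [SimplyConnectedSpace M]
    (hπ₁ : IsCoveringMap π₁)
    (hπl : IsLocalDiffeomorph 𝓘(ℂ, E) 𝓘(ℂ, E) ω π)
    (hπl₁ : IsLocalDiffeomorph 𝓘(ℂ, E₁) 𝓘(ℂ, E₁) ω π₁)
    (hD : D.Compatible fun i => pull π (F i)) (hD₁ : D₁.Compatible fun i => pull π₁ (F₁ i))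
    {f : X → X₁} (hf : Respects F F₁ f) (m₀ : M) (m₁ : M₁) (h0 : π₁ m₁ = f (π m₀)) :
    ∃! g : ∀ i, D.Y i → D₁.Y i, (∀ i, ContMDiff 𝓘(ℂ, D.A i) 𝓘(ℂ, D₁.A i) ω (g i)) ∧
      (∀ m, f (π m) = π₁ (D.prodMap D₁ g m)) ∧ D.prodMap D₁ g m₀ = m₁ := by
  have hlpc : LocallyPathConnectedSpace M := ChartedSpace.locallyPathConnectedSpace E M
  have hne : Nonempty M := ⟨m₀⟩
  have hc : Continuous fun m => f (π m) := hf.1.continuous.comp hπl.contMDiff.continuous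
  obtain ⟨f', ⟨hf'0, hf'⟩, huniq⟩ :=
    hπ₁.existsUnique_continuousMap_lifts (A := M) ⟨fun m => f (π m), hc⟩ m₀ m₁ h0
  have hl : ∀ m, π₁ (f' m) = f (π m) := fun m => congrFun hf' m
  have hf's : ContMDiff 𝓘(ℂ, E) 𝓘(ℂ, E₁) ω f' :=
    contMDiff_lift hπl hπl₁ hf.1 f'.continuous hl
  obtain ⟨g, hg, hgf⟩ := hD.isProduct.map hD₁.isProduct f' hf's fun i x v hv =>
    pull_lift (hπl.contMDiff.mdifferentiable (by simp)) (hπl₁.contMDiff.mdifferentiable (by simp))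
      (hf.1.mdifferentiable (by simp)) (hf's.mdifferentiable (by simp)) hl (F i) (F₁ i)
      (fun x v hv => hf.2 i x v hv) x v hv
  have hgf' : ∀ m, D.prodMap D₁ g m = f' m := fun m => (D.prodMap_eq_iff D₁ g m _).2 (hgf m)
  refine ⟨g, ⟨hg, fun m => ?_, ?_⟩, ?_⟩
  · rw [hgf', hl]
  · rw [hgf', hf'0]
  · rintro g' ⟨hg', hg'f, hg'0⟩
    have hcg : Continuous (D.prodMap D₁ g') := (D.contMDiff_prodMap D₁ g' hg').continuous
    have h1 := huniq ⟨D.prodMap D₁ g', hcg⟩ ⟨hg'0, funext fun m => (hg'f m).symm⟩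
    apply D.prodMap_injective D₁
    intro m
    rw [hgf']
    exact DFunLike.congr_fun h1 m

/-- **Product maps which descend respect the splittings.** -/
theorem respects_of_prodMap [IsManifold 𝓘(ℂ, E) ω X] (hs : Function.Surjective π)
    (hπl : IsLocalDiffeomorph 𝓘(ℂ, E) 𝓘(ℂ, E) ω π)
    (hπl₁ : IsLocalDiffeomorph 𝓘(ℂ, E₁) 𝓘(ℂ, E₁) ω π₁)
    (hD : D.Compatible fun i => pull π (F i)) (hD₁ : D₁.Compatible fun i => pull π₁ (F₁ i))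
    {f : X → X₁} (g : ∀ i, D.Y i → D₁.Y i)
    (hg : ∀ i, ContMDiff 𝓘(ℂ, D.A i) 𝓘(ℂ, D₁.A i) ω (g i))
    (hfg : ∀ m, f (π m) = π₁ (D.prodMap D₁ g m)) : Respects F F₁ f := by
  have hgs := D.contMDiff_prodMap D₁ g hg
  have hf : ContMDiff 𝓘(ℂ, E) 𝓘(ℂ, E₁) ω f := by
    intro x
    obtain ⟨m, rfl⟩ := hs x
    obtain ⟨Θ, hΘm, hΘ⟩ := hπl m
    have hmem : π m ∈ Θ.target := by
      rw [hΘ hΘm]
      exact Θ.map_source hΘm
    have h2 : ContMDiffAt 𝓘(ℂ, E) 𝓘(ℂ, E) ω Θ.symm (π m) :=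
      (Θ.symm.contMDiffOn (π m) hmem).contMDiffAt (Θ.open_target.mem_nhds hmem)
    have h3 : ContMDiffAt 𝓘(ℂ, E) 𝓘(ℂ, E₁) ω (fun x => π₁ (D.prodMap D₁ g (Θ.symm x))) (π m) :=
      (hπl₁.contMDiff _).comp (π m) ((hgs _).comp (π m) h2)
    refine h3.congr_of_eventuallyEq ?_
    filter_upwards [Θ.open_target.mem_nhds hmem] with x hx
    have h4 : π (Θ.symm x) = x := (hΘ (Θ.map_target hx)).trans (Θ.right_inv hx)
    have h5 := hfg (Θ.symm x)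
    rw [h4] at h5
    exact h5
  refine ⟨hf, fun i x v hv => ?_⟩
  obtain ⟨m, rfl⟩ := hs x
  obtain ⟨w, rfl⟩ := (bijective_mfderiv hπl m).2 v
  have h1 := D.mfderiv_prodMap_mem D₁ hD hD₁ g hg i m w hv
  have h2 := mfderiv_lift (hπl.contMDiff.mdifferentiable (by simp))
    (hπl₁.contMDiff.mdifferentiable (by simp)) (hf.mdifferentiable (by simp))
    (hgs.mdifferentiable (by simp)) (fun m => (hfg m).symm) m w
  have h3 := dist_transport (F₁ i) (hfg m).symm _ h1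
  show (show TangentSpace 𝓘(ℂ, E₁) (f (π m)) from (show E₁ from
    mfderiv 𝓘(ℂ, E) 𝓘(ℂ, E₁) f (π m) (mfderiv 𝓘(ℂ, E) 𝓘(ℂ, E) π m w))) ∈ F₁ i (f (π m))
  rw [← h2]
  exact h3

end

end Vale.Agent.P278.H976
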