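import Vale.Agent.P278.H976.Sharp
import Mathlib.Geometry.Manifold.VectorBundle.ContMDiffSection

/-!
# It is enough that the sums of two summands are integrable
-/

set_option linter.all false

open Topology Set Filter Module
open scoped ContDiff Manifold

namespace Vale.Agent.P278.H976

open Vale.Agent.P278.StmtF Vale.Agent.P278.H837 Vale.Agent.P278

universe u v

variable {E : Type*} [NormedAddCommGroup E] [NormedSpace ℂ E]
  {X : Type*} [TopologicalSpace X] [ChartedSpace E X] [IsManifold 𝓘(ℂ, E) ω X] {k : ℕ}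

/-- The basis of `T_x X` given by frames of the summands. -/
theorem exists_basis {V : Type*} [AddCommGroup V] [Module ℂ V] {N : Fin k → Submodule ℂ V}
    (hN : DirectSum.IsInternal N) {r : Fin k → ℕ} {s : ∀ i, Fin (r i) → V}
    (hs : ∀ i, LinearIndependent ℂ (s i) ∧ Submodule.span ℂ (range (s i)) = N i) :
    ∃ B : Basis (Σ i, Fin (r i)) ℂ V, ∀ a, B a = s a.1 a.2 := by
  classical
  let b : ∀ i, Basis (Fin (r i)) ℂ (N i) := fun i =>
    (Basis.span (hs i).1).map (LinearEquiv.ofEq _ _ (hs i).2)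
  refine ⟨hN.collectedBasis b, fun a => ?_⟩
  rw [DirectSum.IsInternal.collectedBasis_coe]
  show ((b a.1 a.2 : N a.1) : V) = s a.1 a.2
  have h1 : b a.1 a.2 = LinearEquiv.ofEq _ _ (hs a.1).2 (Basis.span (hs a.1).1 a.2) :=
    Basis.map_apply _ _ _
  rw [h1, LinearEquiv.coe_ofEq_apply, Basis.span_apply]

/-- the components of a vector of a partial sum -/
theorem component_eq_zero {V : Type*} [AddCommGroup V] [Module ℂ V] {N : Fin k → Submodule ℂ V}
    (hN : DirectSum.IsInternal N) (I : Set (Fin k)) {v : V} (hv : v ∈ ⨆ i ∈ I, N i)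
    {w : Fin k → V} (hw : ∀ i, w i ∈ N i) (hvw : v = ∑ i, w i) (j : Fin k) (hj : j ∉ I) :
    w j = 0 := by
  classical
  obtain ⟨hind, -⟩ := DirectSum.isInternal_submodule_iff_iSupIndep_and_iSup_eq_top N |>.1 hN
  have h1 := hind j
  rw [Submodule.disjoint_def] at h1
  refine h1 _ (hw j) ?_
  have h2 : w j = v - ∑ i ∈ Finset.univ.erase j, w i := by
    rw [hvw, ← Finset.add_sum_erase _ _ (Finset.mem_univ j)]
    abel
  have hle : (⨆ i ∈ I, N i) ≤ ⨆ i ≠ j, N i := iSup₂_le fun i hi =>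
    le_iSup₂ (f := fun i (_ : i ≠ j) => N i) i (fun hij => hj (hij ▸ hi))
  rw [h2]
  refine Submodule.sub_mem _ (hle hv) (Submodule.sum_mem _ fun i hi => ?_)
  exact (le_iSup₂ (f := fun i (_ : i ≠ j) => N i) i (Finset.ne_of_mem_erase hi)) (hw i)

/-- **Holomorphic decomposition of sections.** -/
theorem exists_decomp [FiniteDimensional ℂ E] {F : Fin k → Dist E X}
    (hsub : ∀ i, StmtF.IsSubbundle (F i)) (hdir : ∀ x, DirectSum.IsInternal fun i => F i x)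
    {U : Set X} (hU : IsOpen U) {V : ∀ x : X, TangentSpace 𝓘(ℂ, E) x}
    (hV : ContMDiffOn 𝓘(ℂ, E) 𝓘(ℂ, E).tangent ω
      (fun x => (⟨x, V x⟩ : TangentBundle 𝓘(ℂ, E) X)) U) {x₀ : X} (hx₀ : x₀ ∈ U) :
    ∃ V' : Fin k → ∀ x : X, TangentSpace 𝓘(ℂ, E) x,
      (∀ i, ContMDiffAt 𝓘(ℂ, E) 𝓘(ℂ, E).tangent ω
        (fun x => (⟨x, V' i x⟩ : TangentBundle 𝓘(ℂ, E) X)) x₀) ∧
      (∀ᶠ x in 𝓝 x₀, (∀ i, V' i x ∈ F i x) ∧ V x = ∑ i, V' i x) := by
  classical
  choose N hN r s hsec hfr using fun i => hsub i x₀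
  let ι := Σ i, Fin (r i)
  let t : ι → ∀ x : X, TangentSpace 𝓘(ℂ, E) x := fun a => s a.1 a.2
  let e := trivializationAt E (TangentSpace 𝓘(ℂ, E)) x₀
  have ht : ∀ a, ContMDiffAt 𝓘(ℂ, E) 𝓘(ℂ, E).tangent ω
      (fun x => (⟨x, t a x⟩ : TangentBundle 𝓘(ℂ, E) X)) x₀ := fun a =>
    ((hsec a.1 a.2).1).contMDiffAt (hN a.1)
  have hco : ∀ a, ContMDiffAt 𝓘(ℂ, E) 𝓘(ℂ, E) ω (fun x => (e ⟨x, t a x⟩).2) x₀ := fun a =>
    (Bundle.contMDiffAt_section x₀).1 (ht a)
  have hcoV : ContMDiffAt 𝓘(ℂ, E) 𝓘(ℂ, E) ω (fun x => (e ⟨x, V x⟩).2) x₀ :=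
    (Bundle.contMDiffAt_section x₀).1 (hV.contMDiffAt (hU.mem_nhds hx₀))
  let L : X → ((ι → ℂ) →L[ℂ] E) := fun x =>
    ∑ a, (ContinuousLinearMap.proj (R := ℂ) (φ := fun _ : ι => ℂ) a).smulRight (e ⟨x, t a x⟩).2
  have hLs : ContMDiffAt 𝓘(ℂ, E) 𝓘(ℂ, (ι → ℂ) →L[ℂ] E) ω L x₀ := by
    refine contMDiffAt_finset_sum fun a _ => ?_
    exact ((ContinuousLinearMap.smulRightL ℂ (ι → ℂ) E
      (ContinuousLinearMap.proj (R := ℂ) (φ := fun _ : ι => ℂ) a)).contMDiff.contMDiffAt).comp x₀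
        (hco a)
  -- near `x₀` the map `L x` is invertible
  have hgood : ∀ᶠ x in 𝓝 x₀, (∀ i, x ∈ N i) ∧ x ∈ e.baseSet := by
    refine (eventually_all.2 fun i => hN i).and ?_
    exact e.open_baseSet.mem_nhds (FiberBundle.mem_baseSet_trivializationAt' x₀)
  have hinv : ∀ x, (∀ i, x ∈ N i) → x ∈ e.baseSet →
      ∃ (B : Basis ι ℂ (TangentSpace 𝓘(ℂ, E) x)) (Le : (ι → ℂ) ≃L[ℂ] E), (∀ a, B a = t a x) ∧
        L x = Le ∧ ∀ v, Le.symm ((e ⟨x, v⟩).2) = B.equivFun v := by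
    intro x hx hxe
    obtain ⟨B, hB⟩ := exists_basis (hdir x) (fun i => hfr i x (hx i))
    have : FiniteDimensional ℂ (TangentSpace 𝓘(ℂ, E) x) := inferInstanceAs (FiniteDimensional ℂ E)
    have : T2Space (TangentSpace 𝓘(ℂ, E) x) := inferInstanceAs (T2Space E)
    let q : TangentSpace 𝓘(ℂ, E) x ≃L[ℂ] E := e.continuousLinearEquivAt ℂ x hxe
    have hq : ∀ v, q v = (e ⟨x, v⟩).2 := fun v => rfl
    let p : (ι → ℂ) ≃L[ℂ] TangentSpace 𝓘(ℂ, E) x := B.equivFun.symm.toContinuousLinearEquiv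
    have hp : ∀ c, p c = ∑ a, c a • t a x := by
      intro c
      have : p c = ∑ a, c a • B a := B.equivFun_symm_apply c
      rw [this]
      exact Finset.sum_congr rfl fun a _ => by rw [hB a]
    refine ⟨B, p.trans q, hB, ?_, fun v => ?_⟩
    · ext1 c
      show L x c = q (p c)
      rw [hp, map_sum]
      simp only [L, ContinuousLinearMap.sum_apply]
      refine Finset.sum_congr rfl fun a _ => ?_
      rw [map_smul, hq]
      rfl
    · rw [← hq]
      show p.symm (q.symm (q v)) = B.equivFun v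
      rw [q.symm_apply_apply]
      rfl
  have hx₀g := hgood.self_of_nhds
  obtain ⟨B₀, Le₀, -, hLe₀, -⟩ := hinv x₀ hx₀g.1 hx₀g.2
  let c : X → ι → ℂ := fun x => (L x).inverse (e ⟨x, V x⟩).2
  have hcs : ContMDiffAt 𝓘(ℂ, E) 𝓘(ℂ, ι → ℂ) ω c x₀ := by
    have h1 : ContMDiffAt 𝓘(ℂ, E) 𝓘(ℂ, E →L[ℂ] (ι → ℂ)) ω (fun x => (L x).inverse) x₀ := by
      have h2 : ContDiffAt ℂ ω ContinuousLinearMap.inverse (L x₀) := by
        rw [hLe₀]
        exact contDiffAt_map_inverse Le₀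
      exact ContMDiffAt.comp x₀ h2.contMDiffAt hLs
    exact h1.clm_apply hcoV
  have hcs' : ∀ a, ContMDiffAt 𝓘(ℂ, E) 𝓘(ℂ, ℂ) ω (fun x => c x a) x₀ := fun a =>
    contMDiffAt_pi_space.1 hcs a
  refine ⟨fun i x => ∑ b : Fin (r i), c x ⟨i, b⟩ • s i b x, fun i => ?_, ?_⟩
  · refine ContMDiffAt.sum_section (s := Finset.univ) (t := fun (b : Fin (r i)) x =>
      c x ⟨i, b⟩ • s i b x) fun b _ => ?_
    exact ContMDiffAt.smul_section (hcs' ⟨i, b⟩) (ht ⟨i, b⟩)
  · filter_upwards [hgood] with x hx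
    obtain ⟨B, Le, hB, hLe, hLi⟩ := hinv x hx.1 hx.2
    refine ⟨fun i => ?_, ?_⟩
    · refine Submodule.sum_mem _ fun b _ => Submodule.smul_mem _ _ ?_
      rw [← (hfr i x (hx.1 i)).2]
      exact Submodule.subset_span ⟨b, rfl⟩
    · have hc : c x = B.equivFun (V x) := by
        show (L x).inverse (e ⟨x, V x⟩).2 = _
        rw [hLe, ContinuousLinearMap.inverse_equiv]
        exact hLi (V x)
      have h1 : V x = ∑ a : ι, B.equivFun (V x) a • B a := (B.sum_equivFun (V x)).symm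
      rw [h1]
      simp only [hB, ← hc]
      exact Fintype.sum_sigma (fun a : ι => c x a • t a x)

theorem mlieBracket_sum_left [CompleteSpace E] {ι : Type*} (s : Finset ι)
    {V : ι → ∀ x : X, TangentSpace 𝓘(ℂ, E) x} {W : ∀ x : X, TangentSpace 𝓘(ℂ, E) x} {x : X}
    (hV : ∀ i ∈ s, ContMDiffAt 𝓘(ℂ, E) 𝓘(ℂ, E).tangent ω
      (fun y => (⟨y, V i y⟩ : TangentBundle 𝓘(ℂ, E) X)) x) :
    VectorField.mlieBracket 𝓘(ℂ, E) (fun y => ∑ i ∈ s, V i y) W x =
      ∑ i ∈ s, VectorField.mlieBracket 𝓘(ℂ, E) (V i) W x := by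
  classical
  induction s using Finset.induction_on with
  | empty =>
    simp only [Finset.sum_empty]
    have h := VectorField.mlieBracket_zero_left (I := 𝓘(ℂ, E)) (W := W)
    exact congrFun h x
  | insert i s hi ih =>
    have h1 : (fun y => ∑ j ∈ insert i s, V j y) = V i + fun y => ∑ j ∈ s, V j y := by
      funext y
      rw [Finset.sum_insert hi]
      rfl
    rw [h1, Finset.sum_insert hi, VectorField.mlieBracket_add_left, ih]
    · exact fun j hj => hV j (Finset.mem_insert_of_mem hj)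
    · exact (hV i (Finset.mem_insert_self i s)).mdifferentiableAt (by simp)
    · exact (ContMDiffAt.sum_section (s := s) fun j hj =>
        hV j (Finset.mem_insert_of_mem hj)).mdifferentiableAt (by simp)

theorem mlieBracket_sum_right [CompleteSpace E] {ι : Type*} (s : Finset ι)
    {V : ι → ∀ x : X, TangentSpace 𝓘(ℂ, E) x} {W : ∀ x : X, TangentSpace 𝓘(ℂ, E) x} {x : X}
    (hV : ∀ i ∈ s, ContMDiffAt 𝓘(ℂ, E) 𝓘(ℂ, E).tangent ω
      (fun y => (⟨y, V i y⟩ : TangentBundle 𝓘(ℂ, E) X)) x) :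
    VectorField.mlieBracket 𝓘(ℂ, E) W (fun y => ∑ i ∈ s, V i y) x =
      ∑ i ∈ s, VectorField.mlieBracket 𝓘(ℂ, E) W (V i) x := by
  rw [VectorField.mlieBracket_swap_apply, mlieBracket_sum_left s hV, ← Finset.sum_neg_distrib]
  refine Finset.sum_congr rfl fun i _ => ?_
  rw [← VectorField.mlieBracket_swap_apply]

/-- **It is enough that the sums of two summands are integrable.** -/
theorem integrable_of_pairs [FiniteDimensional ℂ E] {F : Fin k → Dist E X}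
    (hsub : ∀ i, StmtF.IsSubbundle (F i)) (hdir : ∀ x, DirectSum.IsInternal fun i => F i x)
    (hpair : ∀ i j, StmtF.IsIntegrable fun x => F i x ⊔ F j x) (I : Set (Fin k)) :
    StmtF.IsIntegrable fun x => ⨆ i ∈ I, F i x := by
  intro U V W hU hV hW x₀ hx₀
  have : CompleteSpace E := FiniteDimensional.complete ℂ E
  obtain ⟨V', hV's, hV'⟩ := exists_decomp hsub hdir hU hV.1 hx₀
  obtain ⟨W', hW's, hW'⟩ := exists_decomp hsub hdir hU hW.1 hx₀
  have hVn : ∀ᶠ x in 𝓝 x₀, ∀ i, ContMDiffAt 𝓘(ℂ, E) 𝓘(ℂ, E).tangent ω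
      (fun x => (⟨x, V' i x⟩ : TangentBundle 𝓘(ℂ, E) X)) x :=
    eventually_all.2 fun i => (contMDiffAt_iff_contMDiffAt_nhds (by simp)).1 (hV's i)
  have hWn : ∀ᶠ x in 𝓝 x₀, ∀ i, ContMDiffAt 𝓘(ℂ, E) 𝓘(ℂ, E).tangent ω
      (fun x => (⟨x, W' i x⟩ : TangentBundle 𝓘(ℂ, E) X)) x :=
    eventually_all.2 fun i => (contMDiffAt_iff_contMDiffAt_nhds (by simp)).1 (hW's i)
  obtain ⟨O, hO, hOo, hx₀O⟩ := eventually_nhds_iff.1
    (hVn.and (hWn.and (hV'.and (hW'.and (hU.mem_nhds hx₀)))))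
  have hsecV : ∀ i, StmtF.IsHolSec (F i) O (V' i) := fun i =>
    ⟨fun x hx => ((hO x hx).1 i).contMDiffWithinAt, fun x hx => (hO x hx).2.2.1.1 i⟩
  have hsecW : ∀ i, StmtF.IsHolSec (F i) O (W' i) := fun i =>
    ⟨fun x hx => ((hO x hx).2.1 i).contMDiffWithinAt, fun x hx => (hO x hx).2.2.2.1.1 i⟩
  have e1 : V =ᶠ[𝓝 x₀] fun y => ∑ i, V' i y := by
    filter_upwards [hOo.mem_nhds hx₀O] with x hx
    exact (hO x hx).2.2.1.2
  have e2 : W =ᶠ[𝓝 x₀] fun y => ∑ i, W' i y := by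
    filter_upwards [hOo.mem_nhds hx₀O] with x hx
    exact (hO x hx).2.2.2.1.2
  have z1 : ∀ i, i ∉ I → V' i =ᶠ[𝓝 x₀] 0 := by
    intro i hi
    filter_upwards [hOo.mem_nhds hx₀O] with x hx
    have h := hO x hx
    exact component_eq_zero (hdir x) I (hV.2 x h.2.2.2.2) (fun i => h.2.2.1.1 i) h.2.2.1.2 i hi
  have z2 : ∀ i, i ∉ I → W' i =ᶠ[𝓝 x₀] 0 := by
    intro i hi
    filter_upwards [hOo.mem_nhds hx₀O] with x hx
    have h := hO x hx
    exact component_eq_zero (hdir x) I (hW.2 x h.2.2.2.2) (fun i => h.2.2.2.1.1 i)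
      h.2.2.2.1.2 i hi
  have h1 : VectorField.mlieBracket 𝓘(ℂ, E) V W x₀ =
      ∑ i, ∑ j, VectorField.mlieBracket 𝓘(ℂ, E) (V' i) (W' j) x₀ := by
    have a1 := Filter.EventuallyEq.mlieBracket_vectorField_eq (I := 𝓘(ℂ, E)) e1 e2
    have a2 := mlieBracket_sum_left Finset.univ (V := V') (W := fun y => ∑ i, W' i y) (x := x₀)
      fun i _ => hV's i
    have a3 := fun i => mlieBracket_sum_right Finset.univ (V := W') (W := V' i) (x := x₀)
      fun j _ => hW's j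
    exact a1.trans (a2.trans (Finset.sum_congr rfl fun i _ => a3 i))
  rw [h1]
  refine Submodule.sum_mem _ fun i _ => Submodule.sum_mem _ fun j _ => ?_
  by_cases hi : i ∈ I
  · by_cases hj : j ∈ I
    · have h2 := hpair i j O (V' i) (W' j) hOo
        (isHolSec_mono (fun x => le_sup_left) (hsecV i))
        (isHolSec_mono (fun x => le_sup_right) (hsecW j)) x₀ hx₀O
      exact (sup_le (le_iSup₂ (f := fun i (_ : i ∈ I) => F i x₀) i hi)
        (le_iSup₂ (f := fun i (_ : i ∈ I) => F i x₀) j hj)) h2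
    · have a1 := Filter.EventuallyEq.mlieBracket_vectorField_eq (I := 𝓘(ℂ, E))
        (EventuallyEq.refl (𝓝 x₀) (V' i)) (z2 j hj)
      have a2 := congrFun (VectorField.mlieBracket_zero_right (I := 𝓘(ℂ, E)) (W := V' i)) x₀
      rw [a1.trans a2]
      exact Submodule.zero_mem _
  · have a1 := Filter.EventuallyEq.mlieBracket_vectorField_eq (I := 𝓘(ℂ, E)) (z1 i hi)
      (EventuallyEq.refl (𝓝 x₀) (W' j))
    have a2 := congrFun (VectorField.mlieBracket_zero_left (I := 𝓘(ℂ, E)) (W := W' j)) x₀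
    rw [a1.trans a2]
    exact Submodule.zero_mem _

/-- the converse -/
theorem pairs_of_integrable {F : Fin k → Dist E X}
    (h : ∀ I : Set (Fin k), StmtF.IsIntegrable fun x => ⨆ i ∈ I, F i x) (i j : Fin k) :
    StmtF.IsIntegrable fun x => F i x ⊔ F j x := by
  have h1 := h {i, j}
  have h2 : (fun x => ⨆ l ∈ ({i, j} : Set (Fin k)), F l x) = fun x => F i x ⊔ F j x := by
    funext x
    exact iSup_pair
  rw [h2] at h1
  exact h1

end Vale.Agent.P278.H976
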