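import Vale.Agent.P278.H976.Main

/-!
# Which partial sums have to be integrable; the converse of Q1
-/

set_option linter.all false

open Topology Set Filter
open scoped ContDiff Manifold

namespace Vale.Agent.P278.H976

open Vale.Agent.P278.StmtF Vale.Agent.P278.H837 Vale.Agent.P278

universe u v

/-- linear algebra: the sum of the `N i`, `i ∈ I`, is the intersection of the sums of the `N i`,
`i ≠ j`, over the `j ∉ I` -/
theorem mem_iSup_of_complements {V : Type*} [AddCommGroup V] [Module ℂ V] {k : ℕ}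
    {N : Fin k → Submodule ℂ V} (hN : DirectSum.IsInternal N) (I : Set (Fin k)) (v : V)
    (h : ∀ j, j ∉ I → v ∈ ⨆ i ≠ j, N i) : v ∈ ⨆ i ∈ I, N i := by
  classical
  obtain ⟨hind, htop⟩ := DirectSum.isInternal_submodule_iff_iSupIndep_and_iSup_eq_top N |>.1 hN
  have hv : v ∈ ⨆ i ∈ (Finset.univ : Finset (Fin k)), N i := by simp [htop]
  obtain ⟨μ, hμ⟩ := (Submodule.mem_iSup_finset_iff_exists_sum _ _).1 hv
  have hz : ∀ j, j ∉ I → (μ j : V) = 0 := by
    intro j hj
    have h1 := hind j
    rw [Submodule.disjoint_def] at h1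
    refine h1 _ (μ j).2 ?_
    have h2 : (μ j : V) = v - ∑ i ∈ Finset.univ.erase j, (μ i : V) := by
      rw [← hμ, ← Finset.add_sum_erase _ _ (Finset.mem_univ j)]
      abel
    rw [h2]
    refine Submodule.sub_mem _ (h j hj) (Submodule.sum_mem _ fun i hi => ?_)
    exact (le_iSup₂ (f := fun i (_ : i ≠ j) => N i) i (Finset.ne_of_mem_erase hi)) (μ i).2
  rw [← hμ]
  refine Submodule.sum_mem _ fun i _ => ?_
  by_cases hi : i ∈ I
  · exact (le_iSup₂ (f := fun i (_ : i ∈ I) => N i) i hi) (μ i).2
  · rw [hz i hi]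
    exact Submodule.zero_mem _

section
variable {E : Type*} [NormedAddCommGroup E] [NormedSpace ℂ E]
  {X : Type*} [TopologicalSpace X] [ChartedSpace E X] [IsManifold 𝓘(ℂ, E) 1 X] {k : ℕ}

theorem isHolSec_mono {F G : Dist E X} (h : ∀ x, F x ≤ G x) {U : Set X}
    {V : ∀ x : X, TangentSpace 𝓘(ℂ, E) x} (hV : StmtF.IsHolSec F U V) : StmtF.IsHolSec G U V :=
  ⟨hV.1, fun x hx => h x (hV.2 x hx)⟩

/-- It is enough to check the sums with one summand left out. -/
theorem integrable_iff_complements {F : Fin k → Dist E X}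
    (hdir : ∀ x, DirectSum.IsInternal fun i => F i x) :
    (∀ I : Set (Fin k), StmtF.IsIntegrable fun x => ⨆ i ∈ I, F i x) ↔
      ∀ j : Fin k, StmtF.IsIntegrable fun x => ⨆ i ≠ j, F i x := by
  constructor
  · intro h j
    exact h {i | i ≠ j}
  · intro h I U V W hU hV hW x hx
    refine mem_iSup_of_complements (hdir x) I _ fun j hj => ?_
    have hle : ∀ x, (⨆ i ∈ I, F i x) ≤ ⨆ i ≠ j, F i x := fun x =>
      iSup₂_le fun i hi => le_iSup₂ (f := fun i (_ : i ≠ j) => F i x) i
        (fun hij => hj (hij ▸ hi))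
    exact h j U V W hU (isHolSec_mono hle hV) (isHolSec_mono hle hW) x hx

end

section
variable {E : Type*} [NormedAddCommGroup E] [NormedSpace ℂ E]
  {X : Type*} [TopologicalSpace X] [ChartedSpace E X] [IsManifold 𝓘(ℂ, E) ω X]
  {M : Type u} [TopologicalSpace M] [ChartedSpace E M] [IsManifold 𝓘(ℂ, E) ω M]
  {π : M → X} {k : ℕ}

/-- **The converse of Q1**. -/
theorem isSplitting_of_compatible [FiniteDimensional ℂ E] [ConnectedSpace X]
    [SimplyConnectedSpace M]
    (hπ : IsCoveringMap π) (hπl : IsLocalDiffeomorph 𝓘(ℂ, E) 𝓘(ℂ, E) ω π)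
    (F : Fin k → Dist E X) (D : Decomposition E M k) (hD : D.Compatible fun i => pull π (F i)) :
    IsSplitting F := by
  have hne : Nonempty M := inferInstance
  have hP := hD.isProduct
  have hs : Function.Surjective π := surjective_of_covering hπ
  obtain ⟨F', ⟨h1, h2⟩, -⟩ := exists_splitting hπ hπl D.A D.Y D.Φ hP.factor hP.bihol
    (hP.exists_action hπl F)
  have : F = F' := by
    funext i
    apply pull_injective hπl hs
    funext m
    exact (hP.ker i m).trans (h2.ker i m).symm
  rw [this]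
  exact h1

end

end Vale.Agent.P278.H976
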