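import Vale.Agent.P278.H837.Defs

/-!
# Definitions for the second form of Beauville's conjecture: maps between manifolds with splittings
-/

open Topology Set Filter
open scoped ContDiff Manifold

namespace Vale.Agent.P278.H976

open Vale.Agent.P278.StmtF

universe u

section
variable {E : Type*} [NormedAddCommGroup E] [NormedSpace ℂ E]
  {X : Type*} [TopologicalSpace X] [ChartedSpace E X]
  {E₁ : Type*} [NormedAddCommGroup E₁] [NormedSpace ℂ E₁]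
  {X₁ : Type*} [TopologicalSpace X₁] [ChartedSpace E₁ X₁] {k : ℕ}

/-- `f : X → X₁` is holomorphic and `df(F_i) ⊆ F₁_i` for all `i`. -/
def Respects (F : Fin k → Dist E X) (F₁ : Fin k → Dist E₁ X₁) (f : X → X₁) : Prop :=
  ContMDiff 𝓘(ℂ, E) 𝓘(ℂ, E₁) ω f ∧
    ∀ i x, ∀ v ∈ F i x, mfderiv 𝓘(ℂ, E) 𝓘(ℂ, E₁) f x v ∈ F₁ i (f x)

/-- There is a biholomorphic map `f : X → X₁` which maps `F_i` onto `F₁_i` for all `i`: `f` and its
inverse respect the splittings. -/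
def AreIsomorphic (F : Fin k → Dist E X) (F₁ : Fin k → Dist E₁ X₁) : Prop :=
  ∃ f : X ≃ X₁, Respects F F₁ f ∧ Respects F₁ F f.symm

end

section
variable {X : Type*} {X₁ : Type*} {M : Type*} {M₁ : Type*} (π : M → X) (π₁ : M₁ → X₁) {k : ℕ}
  (A : Fin k → Type) [∀ i, NormedAddCommGroup (A i)] [∀ i, NormedSpace ℂ (A i)]
  {Y : Fin k → Type u} [∀ i, TopologicalSpace (Y i)] [∀ i, ChartedSpace (A i) (Y i)]
  (A₁ : Fin k → Type) [∀ i, NormedAddCommGroup (A₁ i)] [∀ i, NormedSpace ℂ (A₁ i)]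
  {Y₁ : Fin k → Type u} [∀ i, TopologicalSpace (Y₁ i)] [∀ i, ChartedSpace (A₁ i) (Y₁ i)]
  (Φ : M → ∀ i, Y i) (Φ₁ : M₁ → ∀ i, Y₁ i)

/-- The maps `g_i : Y_i → Y₁_i` are holomorphic and the map `M → M₁` which is the product of the `g_i`
in the product decompositions `Φ` and `Φ₁` is a lift of `f : X → X₁`. -/
def IsProductLift (f : X → X₁) (g : ∀ i, Y i → Y₁ i) : Prop :=
  (∀ i, ContMDiff 𝓘(ℂ, A i) 𝓘(ℂ, A₁ i) ω (g i)) ∧
    ∀ m m₁, (∀ i, Φ₁ m₁ i = g i (Φ m i)) → π₁ m₁ = f (π m)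

/-- There are biholomorphic maps `g_i : Y_i → Y₁_i` whose product `M → M₁` maps the fibres of `π` onto
the fibres of `π₁`. -/
def FactorsAreIsomorphic : Prop :=
  ∃ g : ∀ i, Y i ≃ Y₁ i,
    (∀ i, ContMDiff 𝓘(ℂ, A i) 𝓘(ℂ, A₁ i) ω (g i) ∧ ContMDiff 𝓘(ℂ, A₁ i) 𝓘(ℂ, A i) ω (g i).symm) ∧
    ∀ m m' m₁ m₁', (∀ i, Φ₁ m₁ i = g i (Φ m i)) → (∀ i, Φ₁ m₁' i = g i (Φ m' i)) →
      (π m = π m' ↔ π₁ m₁ = π₁ m₁')

end

end Vale.Agent.P278.H976
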